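import Vale.Agent.P183L.Tab

namespace Vale.Agent.P183L

@[ext] structure F where
  x0 : ZMod 2
  x1 : ZMod 2
  x2 : ZMod 2
  x3 : ZMod 2
  x4 : ZMod 2
  x5 : ZMod 2
  deriving DecidableEq

namespace F

instance : Zero F := ⟨⟨0, 0, 0, 0, 0, 0⟩⟩
instance : One F := ⟨⟨1, 0, 0, 0, 0, 0⟩⟩
instance : Add F :=
  ⟨fun a b => ⟨a.x0 + b.x0, a.x1 + b.x1, a.x2 + b.x2, a.x3 + b.x3, a.x4 + b.x4, a.x5 + b.x5⟩⟩
instance : Neg F := ⟨fun a => ⟨-a.x0, -a.x1, -a.x2, -a.x3, -a.x4, -a.x5⟩⟩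

def mul (a b : F) : F :=
  ⟨a.x0 * b.x0 + (a.x1 * b.x5 + a.x2 * b.x4 + a.x3 * b.x3 + a.x4 * b.x2 + a.x5 * b.x1),
   a.x0 * b.x1 + a.x1 * b.x0 + (a.x1 * b.x5 + a.x2 * b.x4 + a.x3 * b.x3 + a.x4 * b.x2 + a.x5 * b.x1)
     + (a.x2 * b.x5 + a.x3 * b.x4 + a.x4 * b.x3 + a.x5 * b.x2),
   a.x0 * b.x2 + a.x1 * b.x1 + a.x2 * b.x0 + (a.x2 * b.x5 + a.x3 * b.x4 + a.x4 * b.x3 + a.x5 * b.x2)
     + (a.x3 * b.x5 + a.x4 * b.x4 + a.x5 * b.x3),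
   a.x0 * b.x3 + a.x1 * b.x2 + a.x2 * b.x1 + a.x3 * b.x0 + (a.x3 * b.x5 + a.x4 * b.x4 + a.x5 * b.x3)
     + (a.x4 * b.x5 + a.x5 * b.x4),
   a.x0 * b.x4 + a.x1 * b.x3 + a.x2 * b.x2 + a.x3 * b.x1 + a.x4 * b.x0 + (a.x4 * b.x5 + a.x5 * b.x4)
     + a.x5 * b.x5,
   a.x0 * b.x5 + a.x1 * b.x4 + a.x2 * b.x3 + a.x3 * b.x2 + a.x4 * b.x1 + a.x5 * b.x0 + a.x5 * b.x5⟩

instance : Mul F := ⟨mul⟩

lemma zero_def : (0 : F) = ⟨0, 0, 0, 0, 0, 0⟩ := rfl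
lemma one_def : (1 : F) = ⟨1, 0, 0, 0, 0, 0⟩ := rfl
lemma add_def (a b : F) : a + b =
    ⟨a.x0 + b.x0, a.x1 + b.x1, a.x2 + b.x2, a.x3 + b.x3, a.x4 + b.x4, a.x5 + b.x5⟩ := rfl
lemma neg_def (a : F) : -a = ⟨-a.x0, -a.x1, -a.x2, -a.x3, -a.x4, -a.x5⟩ := rfl
lemma mul_def (a b : F) : a * b = mul a b := rfl

instance : CommRing F := CommRing.ofMinimalAxioms
  (fun a b c => by ext <;> simp only [add_def] <;> ring)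
  (fun a => by ext <;> simp only [add_def, zero_def] <;> ring)
  (fun a => by ext <;> simp only [add_def, zero_def, neg_def] <;> ring)
  (fun a b c => by ext <;> simp only [mul_def, mul] <;> ring)
  (fun a b => by ext <;> simp only [mul_def, mul] <;> ring)
  (fun a => by ext <;> simp only [mul_def, mul, one_def] <;> ring)
  (fun a b c => by ext <;> simp only [mul_def, mul, add_def] <;> ring)

def dec (a : F) : ℕ :=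
  a.x0.val + 2 * a.x1.val + 4 * a.x2.val + 8 * a.x3.val + 16 * a.x4.val + 32 * a.x5.val

def enc (n : ℕ) : F :=
  ⟨(n % 2 : ℕ), (n / 2 % 2 : ℕ), (n / 4 % 2 : ℕ), (n / 8 % 2 : ℕ), (n / 16 % 2 : ℕ), (n / 32 % 2 : ℕ)⟩

lemma aux1 : ∀ a0 a1 a2 a3 a4 a5 : ZMod 2, dec ⟨a0, a1, a2, a3, a4, a5⟩ < 64 ∧
    enc (dec ⟨a0, a1, a2, a3, a4, a5⟩) = ⟨a0, a1, a2, a3, a4, a5⟩ ∧
    (⟨a0, a1, a2, a3, a4, a5⟩ : F) + ⟨a0, a1, a2, a3, a4, a5⟩ = 0 := by decide +kernel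

lemma aux2 : ∀ a0 a1 a2 a3 a4 a5 b0 b1 b2 b3 b4 b5 : ZMod 2,
    dec (mul ⟨a0, a1, a2, a3, a4, a5⟩ ⟨b0, b1, b2, b3, b4, b5⟩) =
      fm (dec ⟨a0, a1, a2, a3, a4, a5⟩) (dec ⟨b0, b1, b2, b3, b4, b5⟩) ∧
    dec ⟨a0 + b0, a1 + b1, a2 + b2, a3 + b3, a4 + b4, a5 + b5⟩ =
      dec ⟨a0, a1, a2, a3, a4, a5⟩ ^^^ dec ⟨b0, b1, b2, b3, b4, b5⟩ := by decide +kernel

lemma dec_lt (a : F) : dec a < 64 := (aux1 _ _ _ _ _ _).1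
lemma enc_dec (a : F) : enc (dec a) = a := (aux1 _ _ _ _ _ _).2.1
lemma add_self (a : F) : a + a = 0 := (aux1 _ _ _ _ _ _).2.2
lemma dec_mul (a b : F) : dec (a * b) = fm (dec a) (dec b) := (aux2 _ _ _ _ _ _ _ _ _ _ _ _).1
lemma dec_add (a b : F) : dec (a + b) = dec a ^^^ dec b := (aux2 _ _ _ _ _ _ _ _ _ _ _ _).2
lemma dec_enc : ∀ n < 64, dec (enc n) = n := by decide +kernel
lemma dec_inj {a b : F} (h : dec a = dec b) : a = b := by rw [← enc_dec a, h, enc_dec]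
lemma dec_zero : dec 0 = 0 := rfl
lemma dec_one : dec 1 = 1 := rfl
lemma two : (2 : F) = 0 := by rw [← one_add_one_eq_two]; exact add_self 1

instance : Finite F := Finite.of_injective (fun a : F => (⟨dec a, dec_lt a⟩ : Fin 64))
  fun _ _ h => dec_inj (congrArg Fin.val h)

end F

end Vale.Agent.P183L
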